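import Vale.Agent.P076N.Amp

/-!
# P076N, block VS: chains, restriction by colourings, regularisation (helper1)
-/

set_option linter.all false

open Finset

namespace Vale.Agent.P076N.VS

noncomputable section

variable {m D K : ℕ} {C Q : ℝ}

theorem mem_below (hD : 0 < D) {r : ℕ} {c τ : Zv m} :
    τ ∈ below D r c ↔ dv ((D : ℤ) ^ r) τ = c := by
  have h : (0 : ℤ) < (D : ℤ) ^ r := by positivity
  simp only [below, Fintype.mem_piFinset, mem_Ico, dv, funext_iff]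
  refine forall_congr' fun l => ?_
  rw [Int.ediv_eq_iff_of_pos h, mul_add, mul_one, mul_comm]

theorem card_below (r : ℕ) (c : Zv m) : #(below D r c) = (D ^ r) ^ m := by
  have : ∀ l, ((D : ℤ) ^ r * (c l + 1) - (D : ℤ) ^ r * c l).toNat = D ^ r := fun l => by
    rw [mul_add, mul_one, add_sub_cancel_left, ← Nat.cast_pow, Int.toNat_natCast]
  simp [below, this]

theorem cap_succ {i : ℕ} (hi : i < K) (τ : Zv m) :
    dv ((D : ℤ) ^ 1) (cap D K (i + 1) τ) = cap D K i τ := by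
  funext l
  simp only [dv, cap]
  rw [Int.ediv_ediv_of_nonneg (by positivity), ← pow_add, show K - (i + 1) + 1 = K - i by omega]

theorem ch_succ (j : ℕ) (S : Nd m) (τ : Zv m) :
    ∀ i, ch D K j S τ (i + 1) = ch D K (j + 1) (par D S (cap D K (j + 1) τ)) τ i
  | 0 => rfl
  | i + 1 => by rw [ch, ch_succ j S τ i, ch, show j + (i + 1) + 1 = j + 1 + i + 1 by omega]

theorem mem_UU (hD : 0 < D) {V : ℕ → Finset (Nd m)} {j : ℕ} {S : Nd m} {τ : Zv m} :
    τ ∈ UU D K V j S ↔ cap D K j τ = S.c ∧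
      ∀ i, 1 ≤ i → j + i ≤ K → ch D K j S τ i ∈ V (j + i) := by
  rw [UU, mem_filter, mem_below hD]
  exact and_congr_right fun _ => forall_congr' fun i => by
    rw [mem_Icc]
    exact ⟨fun h a b => h ⟨a, by omega⟩, fun h a => h a.1 (by omega)⟩

theorem UU_congr {V V' : ℕ → Finset (Nd m)} {j : ℕ} (h : ∀ l, j < l → V' l = V l) (S : Nd m) :
    UU D K V' j S = UU D K V j S :=
  filter_congr fun τ _ => forall₂_congr fun i hi => by
    rw [h _ (by have := (mem_Icc.1 hi).1; omega)]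

theorem GG_congr {V V' : ℕ → Finset (Nd m)} {j : ℕ} (h : ∀ l, j < l → V' l = V l) (S : Nd m) :
    GG D V' j S = GG D V j S := by
  rw [GG, GG, h _ (Nat.lt_succ_self j)]

theorem UU_top (hD : 0 < D) (V : ℕ → Finset (Nd m)) (S : Nd m) : UU D K V K S = {S.c} := by
  ext τ
  rw [mem_UU hD, mem_singleton, show cap D K K τ = τ by funext l; simp [cap, dv]]
  exact and_iff_left fun i a b => by omega

theorem UU_mono {V V' : ℕ → Finset (Nd m)} (h : V' ≤ V) (j : ℕ) (S : Nd m) :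
    UU D K V' j S ⊆ UU D K V j S :=
  monotone_filter_right _ fun τ _ a i hi => h _ (a i hi)

theorem mem_flags {V : ℕ → Finset (Nd m)} {ω : Nd m × Zv m} :
    ω ∈ flags D K V ↔ ω.1 ∈ V 0 ∧ ω.2 ∈ UU D K V 0 ω.1 := by
  simp only [flags, mem_biUnion, mem_image]
  exact ⟨fun ⟨x, a, τ, b, e⟩ => e ▸ ⟨a, b⟩, fun h => ⟨_, h.1, _, h.2, rfl⟩⟩

theorem flags_mono {V V' : ℕ → Finset (Nd m)} (h : V' ≤ V) : flags D K V' ⊆ flags D K V :=
  fun _ a => mem_flags.2 ⟨h 0 (mem_flags.1 a).1, UU_mono h _ _ (mem_flags.1 a).2⟩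

theorem ch_mem (hD : 0 < D) {V : ℕ → Finset (Nd m)} {ω : Nd m × Zv m} (h : ω ∈ flags D K V) {i : ℕ}
    (hi : i ≤ K) : ch D K 0 ω.1 ω.2 i ∈ V i := by
  rcases i.eq_zero_or_pos with rfl | h0
  · exact (mem_flags.1 h).1
  · simpa using ((mem_UU hD).1 (mem_flags.1 h).2).2 i h0 (by omega)

theorem card_flags_le (V : ℕ → Finset (Nd m)) : #(flags D K V) ≤ #(V 0) * (D ^ K) ^ m :=
  card_biUnion_le_card_mul _ _ _ fun x _ =>
    card_image_le.trans ((card_filter_le _ _).trans (card_below _ _).le)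

theorem le_card_flags {V : ℕ → Finset (Nd m)} (h : ∀ x ∈ V 0, (UU D K V 0 x).Nonempty) :
    #(V 0) ≤ #(flags D K V) :=
  card_le_card_of_surjOn Prod.fst fun x hx =>
    (h x hx).elim fun τ hτ => ⟨(x, τ), mem_flags.2 ⟨hx, hτ⟩, rfl⟩

/-- the finest caps through a child -/
theorem UU_child (hD : 0 < D) (V : ℕ → Finset (Nd m)) {j : ℕ} (hj : j < K) (S : Nd m) {c' : Zv m}
    (hc : c' ∈ below D 1 S.c) : (UU D K V j S).filter (fun τ => cap D K (j + 1) τ = c') =
      if par D S c' ∈ V (j + 1) then UU D K V (j + 1) (par D S c') else ∅ := by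
  ext τ
  rw [mem_filter, mem_UU hD]
  split_ifs with h
  · rw [mem_UU hD]
    refine ⟨fun ⟨⟨_, a⟩, b⟩ => ⟨b, fun i _ _ => ?_⟩, fun ⟨b, a⟩ => ⟨⟨?_, fun i _ _ => ?_⟩, b⟩⟩
    · rw [← b, ← ch_succ, show j + 1 + i = j + (i + 1) by omega]
      exact a _ (by omega) (by omega)
    · rw [← cap_succ hj, b]
      exact (mem_below hD).1 hc
    · obtain ⟨i, rfl⟩ : ∃ i', i = i' + 1 := ⟨i - 1, by omega⟩
      rw [ch_succ, show cap D K (j + 1) τ = c' from b]
      rcases i.eq_zero_or_pos with rfl | h0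
      · exact h
      · exact (show j + 1 + i = j + (i + 1) by omega) ▸ a i h0 (by omega)
  · exact iff_of_false (fun ⟨⟨_, a⟩, b⟩ => h (b ▸ a 1 le_rfl hj)) (notMem_empty _)

theorem rec1 (F : Amp m D K C Q) (hD : 0 < D) (V : ℕ → Finset (Nd m)) {j : ℕ} (hj : j < K)
    (S : Nd m) : F.a j S (UU D K V j S) ≤
      C * ∑ c' ∈ GG D V j S, F.a (j + 1) (par D S c') (UU D K V (j + 1) (par D S c')) := by
  refine (F.l1 j hj S _).trans_eq (congrArg _ ?_)
  rw [GG, sum_filter]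
  refine sum_congr rfl fun c' hc => ?_
  rw [F.loc, show (par D S c').c = c' from rfl, UU_child hD V hj S hc]
  split_ifs
  exacts [rfl, F.emp _ _]

theorem up (F : Amp m D K C Q) (hD : 0 < D) (hC : 0 ≤ C) {V : ℕ → Finset (Nd m)} {i : ℕ} {M : ℝ}
    (hi : i ≤ K) (hM : 0 ≤ M) (h : ∀ S ∈ V i, F.a i S (UU D K V i S) ≤ M) :
    ∀ d j, j + d = i → ∀ S ∈ V j, F.a j S (UU D K V j S) ≤ (C * (D : ℝ) ^ m) ^ d * M
  | 0, j, e, S, hS => by
    obtain rfl : j = i := e
    simpa using h S hS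
  | d + 1, j, e, S, hS => by
    refine (rec1 F hD V (by omega) S).trans ?_
    rw [pow_succ', mul_assoc, mul_assoc]
    refine mul_le_mul_of_nonneg_left ((sum_le_card_nsmul _ _ _ fun c' hc =>
      up F hD hC hi hM h d (j + 1) (by omega) _ (mem_filter.1 hc).2).trans ?_) hC
    rw [nsmul_eq_mul]
    refine mul_le_mul_of_nonneg_right ?_ (by positivity)
    exact_mod_cast (card_filter_le _ _).trans (by rw [card_below, pow_one])

theorem sub_sum (F : Amp m D K C Q) (i : ℕ) (S : Nd m) {ι : Type*} [DecidableEq ι] (g : Zv m → ι)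
    (s : Finset ι) : ∀ U : Finset (Zv m), (∀ τ ∈ U, g τ ∈ s) →
      F.a i S U ≤ ∑ e ∈ s, F.a i S (U.filter fun τ => g τ = e) := by
  induction s using Finset.induction_on with
  | empty => exact fun U h => by rw [eq_empty_of_forall_notMem fun τ a => notMem_empty _ (h τ a), F.emp, sum_empty]
  | insert e s he ih =>
    intro U h
    rw [sum_insert he]
    conv_lhs => rw [← filter_union_filter_not_eq (fun τ => g τ = e) U]
    refine (F.sub _ _ _ _ (disjoint_filter_filter_not _ _ _)).trans (add_le_add_right ((ih _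
      fun τ a => (mem_insert.1 (h τ (mem_filter.1 a).1)).resolve_left (mem_filter.1 a).2).trans_eq
      (sum_congr rfl fun e' a => congrArg _ ?_)) _)
    rw [filter_filter]
    exact filter_congr fun τ _ => and_iff_right_of_imp fun b c => he (c.symm.trans b ▸ a)

/-- alive sets of quality `q` -/
structure Good (F : Amp m D K C Q) (α n : ℝ) (V : ℕ → Finset (Nd m)) (q : ℝ) : Prop where
  pos : 0 < q
  amp : ∀ x ∈ V 0, q * α ≤ F.a 0 x (UU D K V 0 x)
  num : q * n ≤ #(V 0)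

variable {F : Amp m D K C Q} {α n q : ℝ} {V : ℕ → Finset (Nd m)}

theorem Good.mono (h : Good F α n V q) (hα : 0 < α) (hn : 0 < n) {q' : ℝ} (h0 : 0 < q')
    (h1 : q' ≤ q) : Good F α n V q' :=
  ⟨h0, fun x a => (mul_le_mul_of_nonneg_right h1 hα.le).trans (h.amp x a),
    (mul_le_mul_of_nonneg_right h1 hn.le).trans h.num⟩

theorem Good.ne (h : Good F α n V q) (hn : 0 < n) : (V 0).Nonempty :=
  card_pos.1 (Nat.cast_pos.1 ((mul_pos h.pos hn).trans_le h.num))

/-- restriction by a colouring of the nodes of one level -/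
theorem col (hD : 0 < D) (hα : 0 < α) (h : Good F α n V q) {i : ℕ} (hi : i ≤ K) {ι : Type*}
    (s : Finset ι) (hs : s.Nonempty) (P : ι → Nd m → Prop) (hP : ∀ S ∈ V i, ∃ e ∈ s, P e S) :
    ∃ e ∈ s, ∃ V' ≤ V, (∀ S ∈ V' i, P e S) ∧ (∀ l, i < l → V' l = V l) ∧ Good F α n V' (q / #s) := by
  classical
  have s1 : (1 : ℝ) ≤ #s := Nat.one_le_cast.2 hs.card_pos
  have s0 : (0 : ℝ) < #s := by positivity
  obtain ⟨e₀, he₀⟩ := id hs
  have : ∀ S, ∃ e ∈ s, S ∈ V i → P e S := fun S => by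
    by_cases a : S ∈ V i
    exacts [(hP S a).imp fun _ b => ⟨b.1, fun _ => b.2⟩, ⟨e₀, he₀, fun b => absurd b a⟩]
  choose f f1 f2 using this
  set W : ι → ℕ → Finset (Nd m) := fun e => Function.update V i ((V i).filter fun S => f S = e)
    with hW
  have W1 : ∀ e, W e ≤ V := fun e => update_le_iff.2 ⟨filter_subset _ _, fun _ _ => le_rfl⟩
  have W2 : ∀ e l, l ≠ i → W e l = V l := fun e l a => Function.update_of_ne a _ _
  have W3 : ∀ e, W e i = (V i).filter fun S => f S = e := fun e => Function.update_self _ _ _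
  set X : ι → Finset (Nd m) := fun e =>
    (W e 0).filter fun x => q / #s * α ≤ F.a 0 x (UU D K (W e) 0 x) with hX
  have cov : V 0 ⊆ s.biUnion X := fun x hx => mem_biUnion.2 (by
    rcases i.eq_zero_or_pos with rfl | h0
    · refine ⟨f x, f1 x, mem_filter.2 ⟨W3 _ ▸ mem_filter.2 ⟨hx, rfl⟩, ?_⟩⟩
      rw [UU_congr fun l a => W2 _ l a.ne']
      exact (mul_le_mul_of_nonneg_right (div_le_self h.pos.le s1) hα.le).trans (h.amp x hx)
    · obtain ⟨e, a, b⟩ := exists_le_of_sum_le (f := fun _ => q / #s * α) hs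
        (((by rw [sum_const, nsmul_eq_mul]; field_simp) : _ = q * α).trans_le ((h.amp x hx).trans
          (sub_sum F 0 x (fun τ => f (ch D K 0 x τ i)) s _ fun _ _ => f1 _)))
      refine ⟨e, a, mem_filter.2 ⟨W2 e 0 h0.ne ▸ hx, b.trans_eq (congrArg _ ?_)⟩⟩
      ext τ
      rw [mem_filter, mem_UU hD, mem_UU hD, and_assoc]
      refine and_congr_right fun _ => ⟨fun c l l1 l2 => ?_, fun c =>
        ⟨fun l l1 l2 => W1 e _ (c l l1 l2), ?_⟩⟩
      · by_cases d : 0 + l = i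
        · obtain rfl : l = i := by omega
          rw [d, W3]
          exact mem_filter.2 ⟨by simpa using c.1 l l1 l2, c.2⟩
        · exact W2 e _ d ▸ c.1 l l1 l2
      · have := c i h0 (by omega)
        rw [zero_add, W3] at this
        exact (mem_filter.1 this).2)
  obtain ⟨e, a, b⟩ := exists_le_of_sum_le (f := fun _ => q / #s * n) (g := fun e => (#(X e) : ℝ)) hs
    (((by rw [sum_const, nsmul_eq_mul]; field_simp) : _ = q * n).trans_le (h.num.trans
      (by exact_mod_cast (card_le_card cov).trans card_biUnion_le)))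
  have u : Function.update (W e) 0 (X e) ≤ W e :=
    update_le_iff.2 ⟨filter_subset _ _, fun _ _ => le_rfl⟩
  refine ⟨e, a, Function.update (W e) 0 (X e), u.trans (W1 e), fun S c => ?_, fun l c => ?_,
    div_pos h.pos s0, fun x c => ?_, by rwa [Function.update_self]⟩
  · obtain ⟨c1, c2⟩ := mem_filter.1 (W3 e ▸ u i c)
    exact c2 ▸ f2 S c1
  · rw [Function.update_of_ne (by omega), W2 _ _ c.ne']
  · rw [Function.update_self] at c
    rw [UU_congr fun l a => Function.update_of_ne a.ne' _ _]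
    exact (mem_filter.1 c).2

/-- binary splitting -/
theorem col2 (hD : 0 < D) (hα : 0 < α) (h : Good F α n V q) {i : ℕ} (hi : i ≤ K)
    (P : Nd m → Prop) : ∃ V' ≤ V, ((∀ S ∈ V' i, P S) ∨ ∀ S ∈ V' i, ¬ P S) ∧
      (∀ l, i < l → V' l = V l) ∧ Good F α n V' (q / 2) := by
  obtain ⟨e, -, V', a, b, c, d⟩ := col hD hα h hi (univ : Finset Bool) univ_nonempty
    (fun e S => (P S ↔ e = true)) fun S _ => by by_cases a : P S <;> simp [a]
  refine ⟨V', a, ?_, c, by simpa using d⟩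
  cases e
  exacts [.inr fun S s => by simpa using b S s, .inl fun S s => by simpa using b S s]

theorem dyad {lo y : ℝ} (h0 : 0 < lo) {M : ℕ} (h1 : lo ≤ y) (h2 : y ≤ lo * 2 ^ M) :
    ∃ e ∈ range (M + 1), lo * 2 ^ e ≤ y ∧ y ≤ 2 * (lo * 2 ^ e) := by
  obtain ⟨e, a, b⟩ := exists_nat_pow_near ((one_le_div h0).2 h1) one_lt_two
  rw [le_div_iff₀' h0] at a
  rw [div_lt_iff₀' h0, pow_succ] at b
  refine ⟨e, mem_range.2 (Nat.lt_succ_of_le ((pow_le_pow_iff_right₀ (one_lt_two (α := ℝ))).1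
    (le_of_mul_le_mul_left (a.trans h2) h0))), a, by linarith⟩

/-- validity at one level -/
def Lv (F : Amp m D K C Q) (V : ℕ → Finset (Nd m)) (i : ℕ) : Prop := ∃ A Γ : ℝ, 0 < A ∧ 1 ≤ Γ ∧
  ∀ S ∈ V i, (A ≤ F.a i S (UU D K V i S) ∧ F.a i S (UU D K V i S) ≤ 2 * A) ∧
    (i < K → Γ ≤ #(GG D V i S) ∧ (#(GG D V i S) : ℝ) ≤ 2 * Γ)

/-- the numbers of the regularisation -/
structure Nm (m D K : ℕ) (C α q₀ hi lo : ℝ) (M : ℕ) : Prop where
  hD : 0 < D
  hC : 1 ≤ C
  hα : 0 < α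
  l0 : 0 < lo
  h0 : 0 ≤ hi
  lo1 : (C * (D : ℝ) ^ m) ^ K * lo < q₀ * α
  hi1 : (C * (D : ℝ) ^ m) ^ K * hi ≤ lo * 2 ^ M
  dm : D ^ m ≤ 2 ^ M

variable {q₀ hi lo : ℝ} {M : ℕ}

theorem reg1 (N : Nm m D K C α q₀ hi lo M) (hn : 0 < n) (top : ∀ S ∈ V K, F.a K S {S.c} ≤ hi)
    (h : Good F α n V q) (hq : q₀ ≤ q / 2) {i : ℕ} (hi : i ≤ K) : ∃ V' ≤ V,
      (∀ l, i < l → V' l = V l) ∧ Good F α n V' (q / (2 * (M + 1) ^ 2)) ∧ Lv F V' i := by
  have c0 : 0 ≤ C := zero_le_one.trans N.hC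
  have e1 : 1 ≤ C * (D : ℝ) ^ m :=
    one_le_mul_of_one_le_of_one_le N.hC (one_le_pow₀ (Nat.one_le_cast.2 N.hD))
  obtain ⟨V₁, a, b | b, c, d⟩ := col2 N.hD N.hα h hi fun S => F.a i S (UU D K V i S) ≤ lo
  · obtain ⟨x, hx⟩ := d.ne hn
    have := (d.amp x hx).trans (up F N.hD c0 hi N.l0.le (fun S s => UU_congr c S ▸ b S s) i 0
      (zero_add i) x hx)
    have := mul_le_mul_of_nonneg_right (pow_le_pow_right₀ e1 hi) N.l0.le
    have := mul_le_mul_of_nonneg_right hq N.hα.le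
    linarith [N.lo1]
  obtain ⟨e, -, V₂, a', b', c', d'⟩ := col N.hD N.hα d hi (range (M + 1) ×ˢ range (M + 1))
    ⟨(0, 0), by simp⟩ (fun e S => (lo * 2 ^ e.1 ≤ F.a i S (UU D K V₁ i S) ∧
      F.a i S (UU D K V₁ i S) ≤ 2 * (lo * 2 ^ e.1)) ∧ (i < K → (1 : ℝ) * 2 ^ e.2 ≤ #(GG D V₁ i S) ∧
        (#(GG D V₁ i S) : ℝ) ≤ 2 * (1 * 2 ^ e.2))) fun S s => by
    have l1 : lo < F.a i S (UU D K V₁ i S) := UU_congr c S ▸ not_le.1 (b S s)
    obtain ⟨e₁, u₁, v₁⟩ := dyad N.l0 l1.le ((up F N.hD c0 le_rfl N.h0 (fun S s => by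
      rw [UU_top N.hD]; exact top S (a K s)) (K - i) i (by omega) S s).trans
      ((mul_le_mul_of_nonneg_right (pow_le_pow_right₀ e1 (Nat.sub_le K i)) N.h0).trans N.hi1))
    by_cases k : i < K
    · obtain ⟨e₂, u₂, v₂⟩ := dyad (y := #(GG D V₁ i S)) (M := M) one_pos
        (Nat.one_le_cast.2 (card_pos.2 (nonempty_iff_ne_empty.2 fun z => by
          have := rec1 F N.hD V₁ k S
          rw [z, sum_empty, mul_zero] at this
          linarith [N.l0]))) (by
          rw [one_mul]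
          exact_mod_cast (card_filter_le _ _).trans ((by rw [card_below, pow_one] :
            _ = D ^ m).trans_le N.dm))
      exact ⟨(e₁, e₂), mem_product.2 ⟨u₁, u₂⟩, v₁, fun _ => v₂⟩
    · exact ⟨(e₁, 0), mem_product.2 ⟨u₁, by simp⟩, v₁, fun z => absurd z k⟩
  refine ⟨V₂, a'.trans a, fun l z => (c' l z).trans (c l z), ?_, lo * 2 ^ e.1, 1 * 2 ^ e.2,
    by have := N.l0; positivity, by rw [one_mul]; exact one_le_pow₀ one_le_two, fun S s => ?_⟩
  · convert d' using 1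
    rw [card_product, card_range, div_div, sq]
    push_cast
    rfl
  · rw [UU_congr c', GG_congr c']
    exact b' S s

theorem reg (N : Nm m D K C α q₀ hi lo M) (hn : 0 < n) (top : ∀ S ∈ V K, F.a K S {S.c} ≤ hi)
    (h : Good F α n V q) (hq : q₀ ≤ q / (2 * (M + 1) ^ 2) ^ (K + 1)) :
    ∃ V' ≤ V, Good F α n V' (q / (2 * (M + 1) ^ 2) ^ (K + 1)) ∧ ∃ A Γ, Valid F V' A Γ := by
  have r2 : (2 : ℝ) ≤ 2 * (M + 1) ^ 2 :=
    le_mul_of_one_le_right zero_le_two (one_le_pow₀ (le_add_of_nonneg_left M.cast_nonneg))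
  have : ∀ d ≤ K + 1, ∃ V' ≤ V, Good F α n V' (q / (2 * (M + 1) ^ 2) ^ d) ∧
      ∀ i ≤ K, K + 1 ≤ i + d → Lv F V' i := fun d => by
    induction d with
    | zero => exact fun _ => ⟨V, le_rfl, by simpa using h, fun i a b => by omega⟩
    | succ d ih =>
      intro hd
      obtain ⟨V₁, a, b, c⟩ := ih (by omega)
      obtain ⟨V₂, a', e, b', c'⟩ := reg1 N hn (fun S s => top S (a K s)) b (hq.trans (by
        rw [div_div]
        exact div_le_div_of_nonneg_left h.pos.le (by positivity) ((mul_le_mul_of_nonneg_left r2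
          (by positivity)).trans ((pow_succ _ d).ge.trans (pow_le_pow_right₀ (by linarith) hd)))))
        (Nat.sub_le K d)
      refine ⟨V₂, a'.trans a, by rwa [pow_succ, ← div_div], fun i i1 i2 => ?_⟩
      by_cases z : i = K - d
      · exact z ▸ c'
      · obtain ⟨A, Γ, u, v, w⟩ := c i i1 (by omega)
        have e' : ∀ l, i < l → V₂ l = V₁ l := fun l y => e l (by omega)
        exact ⟨A, Γ, u, v, fun S s => by
          rw [UU_congr e', GG_congr e']
          exact w S (a' i s)⟩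
  obtain ⟨V', a, b, c⟩ := this _ le_rfl
  have : ∀ i, ∃ A Γ : ℝ, i ≤ K → 0 < A ∧ 1 ≤ Γ ∧ ∀ S ∈ V' i, (A ≤ F.a i S (UU D K V' i S) ∧
      F.a i S (UU D K V' i S) ≤ 2 * A) ∧ (i < K → Γ ≤ #(GG D V' i S) ∧
        (#(GG D V' i S) : ℝ) ≤ 2 * Γ) := fun i => by
    by_cases z : i ≤ K
    · obtain ⟨A, Γ, u⟩ := c i z (by omega)
      exact ⟨A, Γ, fun _ => u⟩
    · exact ⟨0, 0, fun y => absurd y z⟩
  choose A Γ H using this
  exact ⟨V', a, b, A, Γ, b.ne hn, fun i z => (H i z).1, fun i z S s => ((H i z).2.2 S s).1,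
    fun i z => (H i z.le).2.1, fun i z S s => ((H i z.le).2.2 S s).2 z⟩

end

end Vale.Agent.P076N.VS
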