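import Vale.Agent.P076N.VS.Base

/-!
# P076N, block VS: valid structures with types (helper1)
-/

set_option linter.all false

open Finset Filter

namespace Vale.Agent.P076N

noncomputable section

namespace VS

variable {m D K : ℕ} {C Q : ℝ} {F : Amp m D K C Q} {α n q₀ hi lo : ℝ} {M : ℕ}

/-- greedy choice of heavy sets -/
theorem greedy {Ω P : Type*} [Nonempty P] (I : P → Ω → Prop) {θ : ℝ} (hθ : 0 ≤ θ) (J : ℕ) :
    ∀ X : Finset Ω, (#X : ℝ) ≤ J * θ → ∃ f : ℕ → P, ∀ p, ∀ B ⊆ X,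
      (∀ ω ∈ B, I p ω ∧ ∀ s < J, ¬ I (f s) ω) → (#B : ℝ) ≤ θ := by
  classical
  induction J with
  | zero => exact fun X h => ⟨fun _ => Classical.arbitrary P, fun p B b _ =>
      ((Nat.cast_le.2 (card_le_card b)).trans (by simpa using h)).trans hθ⟩
  | succ J ih =>
    intro X h
    by_cases a : ∀ p, (#(X.filter (I p)) : ℝ) ≤ θ
    · exact ⟨fun _ => Classical.arbitrary P, fun p B b c => (Nat.cast_le.2 (card_le_card
        fun ω d => mem_filter.2 ⟨b d, (c ω d).1⟩)).trans (a p)⟩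
    obtain ⟨p₀, a⟩ := not_forall.1 a
    obtain ⟨f, hf⟩ := ih (X.filter fun ω => ¬ I p₀ ω) (by
      have : (#(X.filter (I p₀)) : ℝ) + #(X.filter fun ω => ¬ I p₀ ω) = #X := by
        exact_mod_cast card_filter_add_card_filter_not _
      push_cast at h
      linarith)
    refine ⟨fun s => if s < J then f s else p₀, fun p B b c => hf p B (fun ω d =>
      mem_filter.2 ⟨b d, by simpa using (c ω d).2 J J.lt_succ_self⟩) fun ω d =>
        ⟨(c ω d).1, fun s e => by simpa [e] using (c ω d).2 s (e.trans J.lt_succ_self)⟩⟩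

/-- one restriction for each member of a finite family -/
theorem swp {ι : Type*} (P : ι → (ℕ → Finset (Nd m)) → Prop) (L : ℝ)
    (mo : ∀ t V V', V' ≤ V → P t V → P t V') (T : Finset ι) :
    (∀ t ∈ T, ∀ V q, Good F α n V q → ∃ V' ≤ V, P t V' ∧ Good F α n V' (q / L)) →
      ∀ V q, Good F α n V q → ∃ V' ≤ V, (∀ t ∈ T, P t V') ∧ Good F α n V' (q / L ^ #T) := by
  classical
  induction T using Finset.induction_on with
  | empty => exact fun _ V q h => ⟨V, le_rfl, by simp, by simpa using h⟩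
  | insert t T ht ih =>
    intro st V q h
    obtain ⟨V₁, a, b, c⟩ := ih (fun t' e => st t' (mem_insert_of_mem e)) V q h
    obtain ⟨V₂, a', b', c'⟩ := st t (mem_insert_self _ _) V₁ _ c
    exact ⟨V₂, a'.trans a, forall_mem_insert _ _ _ |>.2 ⟨b', fun t' e => mo _ _ _ a' (b t' e)⟩, by
      rwa [card_insert_of_notMem ht, pow_succ, ← div_div]⟩

theorem nar_mono {V V' : ℕ → Finset (Nd m)} (h : V' ≤ V) {k j w : ℕ} (a : Nar D V k j w) :
    Nar D V' k j w := a.imp fun _ b S s => b S (h _ s)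

open Classical in
theorem main (N : Nm m D K C α q₀ hi lo M) (hn : 0 < n) (q0 : 0 < q₀) (T : Finset (ℕ × ℕ × ℕ))
    (hT : ∀ t ∈ T, t.2.1 + t.2.2 ≤ K) {ρ β : ℝ} (hρ : 0 < ρ) {J : ℕ} (hJ : 0 < J) (hβ : ρ ≤ β * J)
    (k : ℕ) : ∀ r s, r + s = k → ∀ V q, (∀ S ∈ V K, F.a K S {S.c} ≤ hi) → Good F α n V q →
      q₀ * (2 ^ #T * J) ^ s * (2 ^ #T * (2 * (M + 1) ^ 2) ^ (K + 1)) ^ r ≤ q →
      #(T.filter fun t => ¬ Nar D V t.1 t.2.1 t.2.2) ≤ s → #(flags D K V) < ρ ^ r * (q₀ * n) →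
      ∃ V' ≤ V, Good F α n V' q₀ ∧ (∃ A Γ, Valid F V' A Γ) ∧
        ∀ t ∈ T, Nar D V' t.1 t.2.1 t.2.2 ∨ Brd D K V' β t.1 t.2.1 t.2.2 := by
  have J0 : (0 : ℝ) < J := Nat.cast_pos.2 hJ
  have L1 : (1 : ℝ) ≤ 2 ^ #T * J :=
    one_le_mul_of_one_le_of_one_le (one_le_pow₀ one_le_two) (Nat.one_le_cast.2 hJ)
  have R1 : (1 : ℝ) ≤ 2 ^ #T * (2 * (M + 1) ^ 2) ^ (K + 1) :=
    one_le_mul_of_one_le_of_one_le (one_le_pow₀ one_le_two) (one_le_pow₀
      (one_le_mul_of_one_le_of_one_le one_le_two (one_le_pow₀ (le_add_of_nonneg_left M.cast_nonneg))))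
  have q1 : ∀ r s : ℕ, q₀ ≤ q₀ * (2 ^ #T * J) ^ s * (2 ^ #T * (2 * (M + 1) ^ 2) ^ (K + 1)) ^ r :=
    fun r s => mul_assoc q₀ _ _ ▸ le_mul_of_one_le_right q0.le
      (one_le_mul_of_one_le_of_one_le (one_le_pow₀ L1) (one_le_pow₀ R1))
  induction k using Nat.strong_induction_on with
  | _ k ih =>
  intro r s e V q top h hq hs hf
  rcases r with _ | r
  · have := ((h.mono N.hα hn q0 ((q1 0 s).trans hq)).num.trans (Nat.cast_le.2 (le_card_flags
      fun x hx => nonempty_iff_ne_empty.2 fun z => by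
        have := h.amp x hx
        rw [z, F.emp] at this
        exact this.not_gt (mul_pos h.pos N.hα)))).trans_lt hf
    simp at this
  haveI : Nonempty (Pl m) := ⟨(.refl _ _, 0)⟩
  choose f hf' using fun t : ℕ × ℕ × ℕ => greedy (fun (pl : Nd m → Pl m) (ω : Nd m × Zv m) =>
    Str D t.1 t.2.1 t.2.2 pl (ch D K 0 ω.1 ω.2 (t.2.1 + t.2.2))) (θ := #(flags D K V) / J)
    (by positivity) J (flags D K V) (mul_div_cancel₀ _ J0.ne').ge
  obtain ⟨V₁, a₁, b₁, c₁⟩ := swp (fun t V => (∀ S ∈ V (t.2.1 + t.2.2), ∀ s < J,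
    ¬ Str D t.1 t.2.1 t.2.2 (f t s) S) ∨ ∀ S ∈ V (t.2.1 + t.2.2), ¬ ∀ s < J,
      ¬ Str D t.1 t.2.1 t.2.2 (f t s) S) 2
    (fun t _ _ a b => b.imp (fun c S s => c S (a _ s)) fun c S s => c S (a _ s)) T
    (fun t ht V q h => (col2 N.hD N.hα h (hT t ht) _).imp fun _ a => ⟨a.1, a.2.1, a.2.2.2⟩) V q h
  by_cases z : ∃ t ∈ T, ¬ Nar D V t.1 t.2.1 t.2.2 ∧ ∀ S ∈ V₁ (t.2.1 + t.2.2), ¬ ∀ s < J,
      ¬ Str D t.1 t.2.1 t.2.2 (f t s) S
  · obtain ⟨t, ht, z1, z2⟩ := z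
    obtain ⟨u, -, V₂, a₂, b₂, -, c₂⟩ := col N.hD N.hα c₁ (hT t ht) (range J) ⟨0, mem_range.2 hJ⟩
      (fun s S => Str D t.1 t.2.1 t.2.2 (f t s) S) fun S y => by simpa using z2 S y
    have lt : #(T.filter fun t => ¬ Nar D V₂ t.1 t.2.1 t.2.2) < s := by
      refine (card_lt_card ⟨?_, fun y => ?_⟩).trans_le hs
      exacts [monotone_filter_right _ fun _ _ x y => x (nar_mono (a₂.trans a₁) y),
        (mem_filter.1 (y (mem_filter.2 ⟨ht, z1⟩))).2 ⟨_, b₂⟩]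
    obtain ⟨s, rfl⟩ : ∃ s', s = s' + 1 := ⟨s - 1, by omega⟩
    obtain ⟨V₃, a₃, b₃⟩ := ih _ (by omega) (r + 1) s rfl V₂ _ (fun S y => top S (a₂.trans a₁ K y)) c₂
      (by rw [card_range, div_div, le_div_iff₀ (by positivity)]; exact le_of_eq_of_le (by ring) hq)
      (by omega) ((Nat.cast_le.2 (card_le_card (flags_mono (a₂.trans a₁)))).trans_lt hf)
    exact ⟨V₃, a₃.trans (a₂.trans a₁), b₃⟩
  have hq' : q₀ * (2 ^ #T * J) ^ s * (2 ^ #T * (2 * (M + 1) ^ 2) ^ (K + 1)) ^ r ≤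
      q / 2 ^ #T / (2 * (M + 1) ^ 2) ^ (K + 1) := by
    rw [div_div, le_div_iff₀ (by positivity)]
    exact le_of_eq_of_le (by ring) hq
  obtain ⟨V₂, a₂, c₂, v₂⟩ := reg N hn (fun S y => top S (a₁ K y)) c₁ ((q1 r s).trans hq')
  by_cases y : (#(flags D K V) : ℝ) ≤ ρ * #(flags D K V₂)
  · refine ⟨V₂, a₂.trans a₁, c₂.mono N.hα hn q0 ((q1 r s).trans hq'), v₂, fun t ht => ?_⟩
    by_cases x : Nar D V t.1 t.2.1 t.2.2
    · exact .inl (nar_mono (a₂.trans a₁) x)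
    refine .inr fun pl => (hf' t pl _ ((filter_subset _ _).trans (flags_mono (a₂.trans a₁)))
      fun ω o => ⟨(mem_filter.1 o).2, ((b₁ t ht).resolve_right fun w => z ⟨t, ht, x, w⟩) _
        (a₂ _ (ch_mem N.hD (mem_filter.1 o).1 (hT t ht)))⟩).trans ?_
    rw [div_le_iff₀ J0, mul_right_comm]
    exact y.trans (mul_le_mul_of_nonneg_right hβ (Nat.cast_nonneg _))
  · obtain ⟨V₃, a₃, b₃⟩ := ih _ (by omega) r s rfl V₂ _ (fun S y => top S (a₂.trans a₁ K y)) c₂ hq'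
      ((card_le_card (monotone_filter_right _ fun _ _ x y =>
        x (nar_mono (a₂.trans a₁) y))).trans hs)
      (lt_of_mul_lt_mul_left (((not_le.1 y).trans hf).trans_eq (by ring)) hρ.le)
    exact ⟨V₃, a₃.trans (a₂.trans a₁), b₃⟩

theorem ev (κ : ℝ) (k : ℕ) {η : ℝ} (hη : 0 < η) :
    ∃ N₀ : ℕ, ∀ N ≥ N₀, 1 ≤ N ∧ κ * (N : ℝ) ^ k ≤ ((2 : ℝ) ^ N) ^ η := by
  have t := (tendsto_pow_const_div_const_pow_of_one_lt k
    (Real.one_lt_rpow one_lt_two hη)).const_mul κ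
  rw [mul_zero] at t
  obtain ⟨N₀, h⟩ := eventually_atTop.1 ((t.eventually_lt_const one_pos).and (eventually_ge_atTop 1))
  refine ⟨N₀, fun N a => ⟨(h N a).2, ?_⟩⟩
  have := (h N a).1
  rw [← mul_div_assoc, div_lt_one (by positivity)] at this
  rw [← Real.rpow_natCast 2 N, ← Real.rpow_mul zero_le_two, mul_comm (N : ℝ),
    Real.rpow_mul zero_le_two, Real.rpow_natCast]
  exact this.le

end VS

open VS in
/-- **Block VS.** -/
theorem vs (m : ℕ) : StVS m := by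
  classical
  intro K C Tr η hC hη
  set T := Tr.filter fun t => t.2.1 + t.2.2 ≤ K with hT
  set c := η / (4 * (#T + 1)) with hc
  have c0 : 0 < c := by positivity
  obtain ⟨r, hr⟩ := exists_nat_ge ((K * m + η) / c)
  obtain ⟨b₁, hb⟩ := pow_unbounded_of_one_lt (C ^ K * C ^ K) (one_lt_two (α := ℝ))
  set b := b₁ + 2 * (m * K) + K + ⌈η⌉₊ + m with hb'
  obtain ⟨N₀, hN⟩ := ev (2 * (3 ^ m) ^ #T * (2 ^ #T * 2) ^ #T *
    (2 ^ #T * (2 * (b + 1) ^ 2) ^ (K + 1)) ^ r) (2 * (K + 1) * r) (half_pos hη)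
  refine ⟨c, c0, N₀, fun N h Q F V₀ α hα ne amp top => ?_⟩
  obtain ⟨N1, N2⟩ := hN N h
  set X : ℝ := 2 ^ N with hX
  have X2 : 2 ≤ X := le_self_pow₀ one_le_two (by omega)
  have X1 : 1 ≤ X := one_le_two.trans X2
  have X0 : 0 < X := by positivity
  have eX : ((2 ^ N : ℕ) : ℝ) = X := by push_cast; rfl
  have Y0 : 0 < X ^ η := by positivity
  have C0 : 0 < C := one_pos.trans_le hC
  have n0 : (0 : ℝ) < #(V₀ 0) := Nat.cast_pos.2 ne.card_pos
  have ρ1 : 1 ≤ X ^ c := Real.one_le_rpow X1 c0.le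
  have nm : Nm m (2 ^ N) K C α (2 / X ^ η) (α * X ^ K) (α / (X ^ η * (C * X ^ m) ^ K)) (N * b) := by
    refine ⟨by positivity, hC, hα, by positivity, by positivity, ?_, ?_, ?_⟩
    · rw [eX, show (C * X ^ m) ^ K * (α / (X ^ η * (C * X ^ m) ^ K)) = 1 / X ^ η * α by field_simp]
      gcongr
      exact one_lt_two
    · have e1 : X ^ η ≤ X ^ ⌈η⌉₊ := Real.rpow_natCast X _ ▸ Real.rpow_le_rpow_of_exponent_le X1
        (Nat.le_ceil η)
      have e2 : C ^ K * C ^ K ≤ X ^ b₁ := hb.le.trans (pow_le_pow_left₀ zero_le_two X2 _)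
      rw [eX, pow_mul, ← hX, div_mul_eq_mul_div, le_div_iff₀ (by positivity)]
      calc _ = α * (C ^ K * C ^ K * X ^ (2 * (m * K)) * X ^ K * X ^ η * 1) := by ring
        _ ≤ α * (X ^ b₁ * X ^ (2 * (m * K)) * X ^ K * X ^ ⌈η⌉₊ * X ^ m) := by
          gcongr
          exact one_le_pow₀ X1
        _ = _ := by rw [hb']; ring
    · rw [← pow_mul]
      exact Nat.pow_le_pow_right two_pos (Nat.mul_le_mul_left _ (by omega))
  obtain ⟨V₁, a₁, b₁', c₁⟩ := swp (F := F) (α := α) (n := #(V₀ 0))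
    (fun t V => Cons (2 ^ N) V t.2.1 t.2.2) (3 ^ m)
    (fun t _ _ a b => b.imp fun _ c S s => c S (a _ s)) T (fun t ht V q h => by
      obtain ⟨e, -, V', a, b, -, d⟩ := col nm.hD hα h (mem_filter.1 ht).2
        (Fintype.piFinset fun _ : Fin m => Ico (0 : ℤ) 3) ⟨0, by simp⟩
        (fun e S => ∀ l, (atom (2 ^ N) t.2.2 S).o l % 3 = e l) fun S _ =>
          ⟨_, Fintype.mem_piFinset.2 fun l => mem_Ico.2 (by omega), fun l => rfl⟩
      exact ⟨V', a, ⟨e, b⟩, by simpa using d⟩) V₀ 1 ⟨one_pos, by simpa using amp, by simp⟩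
  obtain ⟨V, a, g, ⟨A, Γ, v⟩, ty⟩ := main nm n0 (by positivity) T (fun t ht => (mem_filter.1 ht).2)
    (ρ := X ^ c) (β := X ^ (-c)) (by positivity) (J := ⌈(X ^ c) ^ 2⌉₊) (Nat.ceil_pos.2 (by positivity))
    (by
      rw [Real.rpow_neg X0.le, le_inv_mul_iff₀ (by positivity), ← sq]
      exact Nat.le_ceil _) _ r #T rfl V₁ _ (fun S s => top S (a₁ K s)) c₁ (by
      have e1 : (⌈(X ^ c) ^ 2⌉₊ : ℝ) ≤ 2 * (X ^ c) ^ 2 :=
        (Nat.ceil_lt_add_one (by positivity)).le.trans (by linarith [one_le_pow₀ (n := 2) ρ1])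
      have e2 : ((N * b : ℕ) : ℝ) + 1 ≤ (b + 1) * N := by
        push_cast
        linarith [Nat.one_le_cast (α := ℝ).2 N1]
      have e3 : ((X ^ c) ^ 2) ^ #T ≤ X ^ (η / 2) := by
        rw [← pow_mul, ← Real.rpow_natCast, ← Real.rpow_mul X0.le]
        refine Real.rpow_le_rpow_of_exponent_le X1 ?_
        rw [hc, div_mul_eq_mul_div, div_le_div_iff₀ (by positivity) two_pos]
        push_cast
        nlinarith
      rw [le_div_iff₀ (by positivity), div_mul_eq_mul_div, div_mul_eq_mul_div, div_mul_eq_mul_div,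
        div_le_one Y0]
      calc _ ≤ 2 * (2 ^ #T * (2 * (X ^ c) ^ 2)) ^ #T *
            (2 ^ #T * (2 * ((b + 1) * N) ^ 2) ^ (K + 1)) ^ r * (3 ^ m) ^ #T := by gcongr
        _ = (2 * (3 ^ m) ^ #T * (2 ^ #T * 2) ^ #T * (2 ^ #T * (2 * (b + 1) ^ 2) ^ (K + 1)) ^ r) *
            (N : ℝ) ^ (2 * (K + 1) * r) * ((X ^ c) ^ 2) ^ #T := by
          simp only [mul_pow, pow_mul]
          ring
        _ ≤ X ^ (η / 2) * X ^ (η / 2) := by gcongr
        _ = _ := by rw [← Real.rpow_add X0, add_halves]) (card_filter_le _ _) (by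
      have e1 : (X ^ K) ^ m * X ^ η ≤ (X ^ c) ^ r := by
        rw [← pow_mul, ← Real.rpow_natCast, ← Real.rpow_add X0, ← Real.rpow_natCast,
          ← Real.rpow_mul X0.le]
        refine Real.rpow_le_rpow_of_exponent_le X1 ?_
        rw [div_le_iff₀' c0] at hr
        exact_mod_cast hr
      calc _ ≤ (#(V₀ 0) : ℝ) * (X ^ K) ^ m := by
            rw [← eX]
            exact_mod_cast (card_flags_le V₁).trans (Nat.mul_le_mul_right _ (card_le_card (a₁ 0)))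
        _ = (X ^ K) ^ m * X ^ η * (1 / X ^ η * #(V₀ 0)) := by field_simp
        _ < (X ^ K) ^ m * X ^ η * (2 / X ^ η * #(V₀ 0)) := by
          gcongr
          exact one_lt_two
        _ ≤ _ := by gcongr)
  obtain ⟨x, hx⟩ := v.ne
  refine ⟨V, A, Γ, a.trans a₁, v, ?_, ?_, fun t ht k _ =>
    ⟨(b₁' t (mem_filter.2 ⟨ht, k⟩)).imp fun _ c S s => c S (a _ s), ty t (mem_filter.2 ⟨ht, k⟩)⟩⟩
  · have := (g.amp x hx).trans (v.amp 0 K.zero_le x hx).2
    rw [div_mul_eq_mul_div, div_le_iff₀ Y0] at this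
    linarith
  · have := g.num
    rw [div_mul_eq_mul_div, div_le_iff₀ Y0] at this
    linarith

end

end Vale.Agent.P076N
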